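import Mathlib

/-!
The projection value of the Euclidean ball is below that of a product of planar bodies and segments.
-/

namespace Vale.Agent.P237

open Real

/-- Volume of the Euclidean unit ball. -/
noncomputable def kappa (n : ℕ) : ℝ := √π ^ n / Gamma (n / 2 + 1)

theorem kappa_pos (n : ℕ) : 0 < kappa n :=
  div_pos (pow_pos (Real.sqrt_pos.mpr pi_pos) n) (Gamma_pos_of_pos (by positivity))

theorem kappa_add_two (n : ℕ) : kappa (n + 2) = 2 * π / (n + 2) * kappa n := by
  have h : ((n + 2 : ℕ) : ℝ) / 2 + 1 = ((n : ℝ) / 2 + 1) + 1 := by push_cast; ring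
  rw [kappa, kappa, h, Gamma_add_one (by positivity), pow_add, Real.sq_sqrt pi_pos.le]
  have := Gamma_pos_of_pos (show (0 : ℝ) < (n : ℝ) / 2 + 1 by positivity)
  field_simp

theorem kappa_sq_le (m : ℕ) : kappa m ^ 2 ≤ ((m : ℝ) + 2) / (2 * π) * kappa (m + 1) ^ 2 := by
  set x : ℝ := (m : ℝ) / 2 + 1 with hxdef
  have hx : 0 < x := by positivity
  have h : ((m + 1 : ℕ) : ℝ) / 2 + 1 = x + 1 / 2 := by push_cast; rw [hxdef]; ring
  have hc := Gamma_mul_add_mul_le_rpow_Gamma_mul_rpow_Gamma hx (show 0 < x + 1 by linarith)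
    (a := 1 / 2) (b := 1 / 2) (by norm_num) (by norm_num) (by norm_num)
  rw [show (1 : ℝ) / 2 * x + 1 / 2 * (x + 1) = x + 1 / 2 by ring,
    ← Real.sqrt_eq_rpow, ← Real.sqrt_eq_rpow, ← Real.sqrt_mul (Gamma_pos_of_pos hx).le,
    Gamma_add_one hx.ne'] at hc
  have hg := Gamma_pos_of_pos hx
  have hg' := Gamma_pos_of_pos (show 0 < x + 1 / 2 by linarith)
  have hsq : Gamma (x + 1 / 2) ^ 2 ≤ Gamma x * (x * Gamma x) := by
    rw [← Real.sq_sqrt (show 0 ≤ Gamma x * (x * Gamma x) by positivity)]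
    exact pow_le_pow_left₀ hg'.le hc 2
  have hs : (0 : ℝ) < √π := Real.sqrt_pos.mpr pi_pos
  rw [kappa, kappa, h, show ((m : ℝ) + 2) / (2 * π) = x / π by rw [hxdef]; field_simp,
    pow_succ √π m, div_pow, div_pow, mul_pow, Real.sq_sqrt pi_pos.le, div_mul_div_comm,
    div_le_div_iff₀ (by positivity) (by positivity)]
  have h0 : 0 ≤ π * (√π ^ m) ^ 2 := by positivity
  nlinarith [mul_le_mul_of_nonneg_left hsq h0]

theorem kappa_three : kappa 3 = 4 * π / 3 := by
  have h1 : kappa 1 = 2 := by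
    rw [kappa, show ((1 : ℕ) : ℝ) / 2 + 1 = 1 / 2 + 1 by norm_num,
      Gamma_add_one (by norm_num), Gamma_one_half_eq, pow_one]
    field_simp
  rw [kappa_add_two 1, h1]
  norm_num
  ring

theorem key_bound : ∀ n : ℕ, 4 ≤ n → (((n : ℝ) + 1) / (2 * π)) ^ n * kappa n ^ 4 < 4 ^ n
  | 0, h => absurd h (by omega)
  | 1, h => absurd h (by omega)
  | 2, h => absurd h (by omega)
  | 3, h => absurd h (by omega)
  | 4, _ => by
      have h0 : kappa 0 = 1 := by simp [kappa]
      rw [kappa_add_two 2, kappa_add_two 0, h0]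
      have hpi := Real.pi_lt_d4
      have h := pi_pos
      have e : (((4 : ℕ) : ℝ) + 1) / (2 * π) * (2 * π / (((2 : ℕ) : ℝ) + 2)
          * (2 * π / (((0 : ℕ) : ℝ) + 2) * 1)) = 5 * π / 4 := by
        push_cast; field_simp; ring
      rw [← mul_pow, e]
      exact pow_lt_pow_left₀ (by linarith) (by positivity) (by norm_num)
  | 5, _ => by
      rw [kappa_add_two 3, kappa_three]
      have hpi := Real.pi_lt_d4
      have h := pi_pos
      push_cast
      have e : (((5 : ℝ) + 1) / (2 * π)) ^ 5 * (2 * π / (3 + 2) * (4 * π / 3)) ^ 4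
          = 3 ^ 5 * (8 / 15) ^ 4 * π ^ 3 := by
        field_simp; ring
      rw [e]
      have : π ^ 3 ≤ 4 ^ 3 := pow_le_pow_left₀ h.le pi_lt_four.le 3
      have : π ^ 3 < 31.1 := by
        calc π ^ 3 ≤ 3.1416 ^ 3 := pow_le_pow_left₀ h.le hpi.le 3
          _ < 31.1 := by norm_num
      nlinarith
  | n + 6, _ => by
      have ih := key_bound (n + 4) (by omega)
      set m : ℕ := n + 4 with hm
      have hm4 : (4 : ℝ) ≤ m := by exact_mod_cast Nat.le_add_left 4 n
      rw [show n + 6 = m + 2 by omega, kappa_add_two m]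
      have hp := pi_pos
      have hk := kappa_pos m
      have e : ((((m + 2 : ℕ) : ℝ) + 1) / (2 * π)) ^ (m + 2)
            * (2 * π / ((m : ℝ) + 2) * kappa m) ^ 4
          = ((((m : ℝ) + 1) / (2 * π)) ^ m * kappa m ^ 4) * (1 + 2 / ((m : ℝ) + 1)) ^ m
            * (2 * π * ((m : ℝ) + 3) / ((m : ℝ) + 2) ^ 2) ^ 2 := by
        rw [show (((m + 2 : ℕ) : ℝ) + 1) / (2 * π)
            = ((m : ℝ) + 1) / (2 * π) * (1 + 2 / ((m : ℝ) + 1)) by push_cast; field_simp; ring,
          pow_add, mul_pow (((m : ℝ) + 1) / (2 * π))]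
        field_simp
        ring
      rw [e, show (4 : ℝ) ^ (m + 2) = 4 ^ m * 4 ^ 2 from pow_add 4 m 2]
      have h1 : (1 + 2 / ((m : ℝ) + 1)) ^ m ≤ 7.39 := by
        calc (1 + 2 / ((m : ℝ) + 1)) ^ m ≤ Real.exp (2 / ((m : ℝ) + 1)) ^ m :=
              pow_le_pow_left₀ (by positivity) (by linarith [Real.add_one_le_exp (2 / ((m:ℝ) + 1))]) m
          _ = Real.exp (m * (2 / ((m : ℝ) + 1))) := (Real.exp_nat_mul _ m).symm
          _ ≤ Real.exp (1 + 1) := by
              refine Real.exp_le_exp.mpr ?_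
              rw [mul_div_assoc', div_le_iff₀ (by positivity)]
              linarith
          _ ≤ 7.39 := by
              rw [Real.exp_add]
              have := Real.exp_one_lt_d9
              nlinarith [Real.exp_pos 1]
      have h2 : 2 * π * ((m : ℝ) + 3) / ((m : ℝ) + 2) ^ 2 ≤ 1.23 := by
        rw [div_le_iff₀ (by positivity)]
        nlinarith [Real.pi_lt_d4]
      calc (((m : ℝ) + 1) / (2 * π)) ^ m * kappa m ^ 4 * (1 + 2 / ((m : ℝ) + 1)) ^ m
            * (2 * π * ((m : ℝ) + 3) / ((m : ℝ) + 2) ^ 2) ^ 2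
          ≤ 4 ^ m * 7.39 * 1.23 ^ 2 := by gcongr
        _ < 4 ^ m * 4 ^ 2 := by
            rw [mul_assoc]
            exact mul_lt_mul_of_pos_left (by norm_num) (by positivity)

theorem ball_bound {n : ℕ} (hn : 3 ≤ n) : kappa (n - 1) ^ n < 2 ^ n * kappa n ^ (n - 2) := by
  obtain h | h := hn.eq_or_lt
  · subst h
    rw [kappa_three]
    have h2 : kappa 2 = π := by
      rw [kappa_add_two 0, show kappa 0 = 1 by simp [kappa]]
      norm_num
    simp only [show 3 - 1 = 2 from rfl, show 3 - 2 = 1 from rfl, h2]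
    nlinarith [Real.pi_lt_d4, pi_pos, mul_pos pi_pos pi_pos]
  · have hm : n - 1 + 1 = n := by omega
    have h1 := kappa_sq_le (n - 1)
    rw [hm, show ((n - 1 : ℕ) : ℝ) + 2 = (n : ℝ) + 1 by
      rw [Nat.cast_sub (by omega)]; push_cast; ring] at h1
    have h2 := key_bound n h
    have hk := kappa_pos n
    refine lt_of_pow_lt_pow_left₀ 2 (by positivity) ?_
    calc (kappa (n - 1) ^ n) ^ 2 = (kappa (n - 1) ^ 2) ^ n := by rw [← pow_mul, ← pow_mul, mul_comm]
      _ ≤ ((((n : ℝ) + 1) / (2 * π)) * kappa n ^ 2) ^ n := pow_le_pow_left₀ (by positivity) h1 n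
      _ = (((n : ℝ) + 1) / (2 * π)) ^ n * kappa n ^ 4 * (kappa n ^ (n - 2)) ^ 2 := by
          rw [mul_pow, mul_assoc, ← pow_mul, ← pow_mul, ← pow_add]
          congr 2
          omega
      _ < 4 ^ n * (kappa n ^ (n - 2)) ^ 2 := by
          exact mul_lt_mul_of_pos_right h2 (by positivity)
      _ = _ := by
          rw [mul_pow, ← pow_mul 2 n 2, show n * 2 = 2 * n by ring, pow_mul]
          norm_num

end Vale.Agent.P237
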