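import Mathlib
import Vale.Agent.P074.PL

/-!
Volume growth of a convex product body under adding a segment, by slicing.
-/

namespace Vale.Agent.P237

open MeasureTheory Set
open scoped ENNReal Pointwise

variable {X : Type*} [AddCommGroup X] [Module ℝ X]

/-- The segment from `0` to `v`. -/
def seg (v : X) : Set X := (fun s : ℝ => s • v) '' Icc 0 1

/-- Adding a segment increases the volume at least by the factor `1 + f v`. -/
def Grows [MeasureSpace X] (A : Set X) (f : X → ℝ≥0∞) : Prop :=
  ∀ v, volume A * (1 + f v) ≤ volume (A + seg v)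

/-- Positive homogeneity of degree one. -/
def Hom (f : X → ℝ≥0∞) : Prop := ∀ r : ℝ, 0 ≤ r → ∀ v, f (r • v) = ENNReal.ofReal r * f v

theorem isCompact_seg [TopologicalSpace X] [ContinuousSMul ℝ X] (v : X) : IsCompact (seg v) :=
  isCompact_Icc.image (continuous_id.smul continuous_const)

theorem Grows.comap {Y : Type*} [AddCommGroup Y] [Module ℝ Y] [MeasureSpace X] [MeasureSpace Y]
    {A : Set Y} {f : Y → ℝ≥0∞} (hA : Grows A f) (e : X ≃ᵐ Y) (he : MeasurePreserving e)
    (hl : IsLinearMap ℝ e) : Grows (e ⁻¹' A) (f ∘ e) := by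
  intro v
  have h : e ⁻¹' (A + seg (e v)) = e ⁻¹' A + seg v := by
    ext x
    constructor
    · rintro ⟨a, ha, _, ⟨s, hs, rfl⟩, he'⟩
      refine ⟨e.symm a, by simpa using ha, s • v, ⟨s, hs, rfl⟩, e.injective ?_⟩
      simpa [hl.map_add, hl.map_smul] using he'
    · rintro ⟨a, ha, _, ⟨s, hs, rfl⟩, rfl⟩
      exact ⟨e a, ha, s • e v, ⟨s, hs, rfl⟩, by simp [hl.map_add, hl.map_smul]⟩
  rw [← h, he.measure_preimage_equiv, he.measure_preimage_equiv]
  exact hA (e v)

theorem hom_comap {Y : Type*} [AddCommGroup Y] [Module ℝ Y] {f : Y → ℝ≥0∞} (hf : Hom f)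
    {e : X → Y} (hl : IsLinearMap ℝ e) : Hom (f ∘ e) := fun r hr v => by
  simp [Function.comp, hl.map_smul, hf r hr]

section prod

variable {E F : Type*} [NormedAddCommGroup E] [NormedSpace ℝ E] [MeasureSpace E] [BorelSpace E]
  [SecondCountableTopology E] [Measure.IsAddHaarMeasure (volume : Measure E)]
  [SigmaFinite (volume : Measure E)]
  [NormedAddCommGroup F] [NormedSpace ℝ F] [MeasureSpace F] [BorelSpace F]
  [SecondCountableTopology F] [Measure.IsAddHaarMeasure (volume : Measure F)]
  [SigmaFinite (volume : Measure F)]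

/-- The parameters of the translates of `B` along `b` that contain `y`. -/
def times (B : Set F) (b y : F) : Set ℝ := {s | s ∈ Icc (0 : ℝ) 1 ∧ y - s • b ∈ B}

theorem times_eq_Icc {B : Set F} (hB : Convex ℝ B) (cB : IsClosed B) {b y : F}
    (hne : (times B b y).Nonempty) :
    ∃ s t, s ≤ t ∧ times B b y = Icc s t := by
  have hc : IsCompact (times B b y) :=
    isCompact_Icc.of_isClosed_subset
      (isClosed_Icc.inter (cB.preimage (by fun_prop : Continuous fun s : ℝ => y - s • b)))
      fun s hs => hs.1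
  have hconv : Convex ℝ (times B b y) := by
    intro s hs t ht p q hp hq hpq
    refine ⟨convex_Icc 0 1 hs.1 ht.1 hp hq hpq, ?_⟩
    have e : y - (p • s + q • t) • b = p • (y - s • b) + q • (y - t • b) := by
      have hq' : q = 1 - p := by linarith
      subst hq'
      simp only [smul_eq_mul]
      module
    rw [e]
    exact hB hs.2 ht.2 hp hq hpq
  have h := eq_Icc_of_connected_compact ⟨hne, hconv.isPreconnected⟩ hc
  exact ⟨_, _, nonempty_Icc.mp (h ▸ hne), h⟩

theorem lintegral_times {B : Set F} (cB : IsClosed B) (b : F) :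
    ∫⁻ y, volume (times B b y) = volume B := by
  set W : Set (F × ℝ) := {p | p.2 ∈ Icc (0 : ℝ) 1 ∧ p.1 - p.2 • b ∈ B} with hWdef
  have hW : MeasurableSet W :=
    ((isClosed_Icc.preimage continuous_snd).inter
      (cB.preimage (by fun_prop : Continuous fun p : F × ℝ => p.1 - p.2 • b))).measurableSet
  have h1 := Measure.prod_apply (μ := (volume : Measure F)) (ν := (volume : Measure ℝ)) hW
  have h2 := Measure.prod_apply_symm (μ := (volume : Measure F)) (ν := (volume : Measure ℝ)) hW
  have h3 : ∀ s : ℝ, volume ((fun y => (y, s)) ⁻¹' W)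
      = (Icc (0 : ℝ) 1).indicator (fun _ => volume B) s := by
    intro s
    by_cases hs : s ∈ Icc (0 : ℝ) 1
    · rw [indicator_of_mem hs]
      have e : (fun y => (y, s)) ⁻¹' W = (fun y => y + -(s • b)) ⁻¹' B := by
        ext y; simp [hWdef, hs.1, hs.2, sub_eq_add_neg]
      rw [e, measure_preimage_add_right]
    · rw [indicator_of_notMem hs]
      have e : (fun y => (y, s)) ⁻¹' W = ∅ := by
        ext y; simp only [hWdef, mem_preimage, mem_setOf_eq, mem_empty_iff_false, iff_false]
        exact fun h => hs h.1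
      rw [e, measure_empty]
  rw [h1] at h2
  simp only [h3] at h2
  rw [lintegral_indicator measurableSet_Icc, setLIntegral_const, Real.volume_Icc] at h2
  simpa [hWdef, times] using h2

theorem Grows.prod {A : Set E} {B : Set F} {f : E → ℝ≥0∞} {g : F → ℝ≥0∞}
    (cA : IsCompact A) (cB : IsCompact B) (hB : Convex ℝ B)
    (hA : Grows A f) (hf : Hom f) (hBg : Grows B g) :
    Grows (A ×ˢ B) (fun v => f v.1 + g v.2) := by
  rintro ⟨a, b⟩
  have hm : MeasurableSet (A ×ˢ B + seg (a, b)) :=
    ((cA.prod cB).add (isCompact_seg _)).isClosed.measurableSet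
  rw [Measure.volume_eq_prod, Measure.prod_prod, Measure.prod_apply_symm hm]
  have key : ∀ y, (B + seg b).indicator (fun _ => volume A) y
      + volume A * f a * volume (times B b y)
        ≤ volume ((fun x => (x, y)) ⁻¹' (A ×ˢ B + seg (a, b))) := by
    intro y
    by_cases hy : y ∈ B + seg b
    · obtain ⟨z, hz, _, ⟨r, hr, rfl⟩, rfl⟩ := hy
      have hne : (times B b (z + r • b)).Nonempty := ⟨r, hr, by simpa using hz⟩
      obtain ⟨s, t, hst, hI⟩ := times_eq_Icc hB cB.isClosed hne
      have hy' : z + r • b ∈ B + seg b := ⟨z, hz, r • b, ⟨r, hr, rfl⟩, rfl⟩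
      rw [indicator_of_mem hy', hI, Real.volume_Icc]
      calc volume A + volume A * f a * ENNReal.ofReal (t - s)
          = volume A * (1 + f ((t - s) • a)) := by rw [hf _ (by linarith)]; ring
        _ ≤ volume (A + seg ((t - s) • a)) := hA _
        _ = volume ((fun x => -(s • a) + x) ⁻¹' (A + seg ((t - s) • a))) :=
            (measure_preimage_add _ _ _).symm
        _ ≤ _ := measure_mono ?_
      rintro x ⟨a', ha', _, ⟨u, hu, rfl⟩, hx⟩
      have hmem : s + u * (t - s) ∈ times B b (z + r • b) := by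
        rw [hI]; constructor <;> nlinarith [hu.1, hu.2]
      refine ⟨(a', z + r • b - (s + u * (t - s)) • b), ⟨ha', hmem.2⟩,
        (s + u * (t - s)) • (a, b), ⟨_, hmem.1, rfl⟩, ?_⟩
      simp only [Prod.smul_mk, Prod.mk_add_mk, sub_add_cancel]
      congr 1
      simp only at hx
      have hx' : x = s • a + (a' + u • (t - s) • a) := by rw [hx]; abel
      rw [hx']
      module
    · have hI : times B b y = ∅ := by
        refine eq_empty_of_forall_notMem fun s hs => hy ?_
        exact ⟨_, hs.2, s • b, ⟨s, hs.1, rfl⟩, sub_add_cancel _ _⟩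
      simp [indicator_of_notMem hy, hI]
  refine le_trans ?_ (lintegral_mono key)
  have hBm : MeasurableSet (B + seg b) := (cB.add (isCompact_seg _)).isClosed.measurableSet
  rw [lintegral_add_left (measurable_const.indicator hBm),
    lintegral_indicator hBm, setLIntegral_const]
  have htm : Measurable fun y => volume (times B b y) := by
    refine measurable_measure_prodMk_left (s := {p : F × ℝ | p.2 ∈ Icc (0 : ℝ) 1 ∧
      p.1 - p.2 • b ∈ B}) ?_
    exact ((isClosed_Icc.preimage continuous_snd).inter (cB.isClosed.preimage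
      (by fun_prop : Continuous fun p : F × ℝ => p.1 - p.2 • b))).measurableSet
  rw [lintegral_const_mul _ htm, lintegral_times cB.isClosed]
  calc volume A * volume B * (1 + (f a + g b))
      = volume A * (volume B * (1 + g b)) + volume A * f a * volume B := by ring
    _ ≤ _ := by gcongr; exact hBg b

theorem grows_pi : ∀ (k : ℕ) (A : Fin k → Set E) (f : Fin k → E → ℝ≥0∞),
    (∀ i, IsCompact (A i)) → (∀ i, Convex ℝ (A i)) → (∀ i, Grows (A i) (f i)) →
    (∀ i, Hom (f i)) → Grows (univ.pi A) (fun v => ∑ i, f i (v i)) := by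
  intro k
  induction k with
  | zero =>
      intro A f _ _ _ _ v
      have h : univ.pi A = univ := by ext x; simp
      rw [h]
      simp only [Finset.univ_eq_empty, Finset.sum_empty, add_zero, mul_one]
      refine measure_mono fun x _ => ⟨x, mem_univ _, 0, ⟨0, by simp, ?_⟩, add_zero x⟩
      exact Subsingleton.elim _ _
  | succ k ih =>
      intro A f cA hA hg hf
      set e := MeasurableEquiv.piFinSuccAbove (fun _ : Fin (k + 1) => E) 0 with he
      have hp := (hg 0).prod (cA 0) (isCompact_univ_pi fun i : Fin k => cA i.succ)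
        (convex_pi fun i _ => hA i.succ) (hf 0)
        (ih (fun i => A i.succ) (fun i => f i.succ) (fun i => cA _) (fun i => hA _)
          (fun i => hg _) (fun i => hf _))
      have hl : IsLinearMap ℝ e := by
        constructor <;> intros <;> ext <;>
          simp [he, MeasurableEquiv.piFinSuccAbove, Fin.tail]
      have h := hp.comap e (volume_preserving_piFinSuccAbove (fun _ => E) 0) hl
      convert h using 1
      · ext x
        simp [he, MeasurableEquiv.piFinSuccAbove, Fin.forall_fin_succ, Fin.tail]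
      · ext v
        simp [he, MeasurableEquiv.piFinSuccAbove, Fin.sum_univ_succ, Fin.tail]

end prod

theorem grows_interval : Grows (Icc (0 : ℝ) 1) (fun v => ENNReal.ofReal |v|) := by
  intro v
  rw [Real.volume_Icc, sub_zero, ENNReal.ofReal_one, one_mul, ← ENNReal.ofReal_one,
    ← ENNReal.ofReal_add zero_le_one (abs_nonneg v)]
  have h1 := le_of_eq (Real.volume_Icc (a := min 0 v) (b := 1 + max 0 v)).symm
  have e : 1 + max 0 v - min 0 v = 1 + |v| := by
    rcases le_total 0 v with h | h <;> simp [h, abs_of_nonneg, abs_of_nonpos] <;> ring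
  rw [e] at h1
  refine h1.trans (measure_mono fun x hx => ?_)
  rcases le_or_gt v 0 with h | h
  · simp only [max_eq_left h, min_eq_right h, mem_Icc] at hx
    by_cases hx0 : 0 ≤ x
    · exact ⟨x, ⟨hx0, by linarith⟩, 0, ⟨0, by simp, by simp⟩, add_zero x⟩
    · have hv : v < 0 := by linarith
      refine ⟨0, by simp, x, ⟨x / v, ⟨div_nonneg_of_nonpos (by linarith) h, ?_⟩, ?_⟩, zero_add x⟩
      · rw [div_le_one_of_neg hv]; exact hx.1
      · exact div_mul_cancel₀ x hv.ne
  · simp only [max_eq_right h.le, min_eq_left h.le, mem_Icc] at hx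
    by_cases hx1 : x ≤ 1
    · exact ⟨x, ⟨hx.1, hx1⟩, 0, ⟨0, by simp, by simp⟩, add_zero x⟩
    · refine ⟨1, by simp, x - 1, ⟨(x - 1) / v, ⟨div_nonneg (by linarith) h.le, ?_⟩, ?_⟩, by ring⟩
      · rw [div_le_one h]; linarith
      · exact div_mul_cancel₀ _ h.ne'

theorem hom_abs : Hom fun v : ℝ => ENNReal.ofReal |v| := fun r hr v => by
  simp only [smul_eq_mul]
  rw [ abs_mul, abs_of_nonneg hr, ENNReal.ofReal_mul hr]

theorem grows_cross {A : Set (ℝ × ℝ)} (hA : Convex ℝ A) (cA : IsCompact A) {p q : ℝ × ℝ}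
    (hp : p ∈ A) (hq : q ∈ A) :
    volume A + ENNReal.ofReal |p.2 - q.2| ≤ volume (A + seg ((1, 0) : ℝ × ℝ)) := by
  have hm : MeasurableSet (A + seg ((1, 0) : ℝ × ℝ)) :=
    (cA.add (isCompact_seg _)).isClosed.measurableSet
  rw [Measure.volume_eq_prod, Measure.prod_apply_symm cA.isClosed.measurableSet,
    Measure.prod_apply_symm hm]
  have hz : volume (uIcc q.2 p.2) = ENNReal.ofReal |p.2 - q.2| := by
    rw [uIcc, Real.volume_Icc, max_sub_min_eq_abs]
  rw [← hz, ← lintegral_indicator_one measurableSet_uIcc,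
    ← lintegral_add_right _ (measurable_one.indicator measurableSet_uIcc)]
  refine lintegral_mono fun y => ?_
  set S := (fun x => (x, y)) ⁻¹' A with hS
  have hsub : S ⊆ (fun x => (x, y)) ⁻¹' (A + seg ((1, 0) : ℝ × ℝ)) := fun x hx =>
    ⟨(x, y), hx, 0, ⟨0, by simp, by simp⟩, add_zero _⟩
  by_cases hy : y ∈ uIcc q.2 p.2
  · rw [indicator_of_mem hy]
    obtain ⟨w, hw, hwy⟩ : ∃ w ∈ A, w.2 = y := by
      have h : Prod.snd '' segment ℝ q p = segment ℝ q.2 p.2 := image_segment ℝ
        ((LinearMap.snd ℝ ℝ ℝ).toAffineMap) q p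
      rw [segment_eq_uIcc] at h
      rw [← h] at hy
      obtain ⟨w, hw, rfl⟩ := hy
      exact ⟨w, hA.segment_subset hq hp hw, rfl⟩
    have hne : S.Nonempty := ⟨w.1, by simp [hS, ← hwy, hw]⟩
    have hc : IsCompact S := by
      refine (cA.image continuous_fst).of_isClosed_subset (cA.isClosed.preimage (by fun_prop))
        fun x hx => ⟨(x, y), hx, rfl⟩
    have hconv : Convex ℝ S := by
      intro s hs t ht c d hc hd hcd
      have h := hA hs ht hc hd hcd
      simpa [hS, ← add_mul, hcd] using h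
    obtain ⟨h1⟩ : PLift (S = Icc (sInf S) (sSup S)) :=
      ⟨eq_Icc_of_connected_compact ⟨hne, hconv.isPreconnected⟩ hc⟩
    set l := sInf S
    set r := sSup S
    have hlr : l ≤ r := nonempty_Icc.mp (h1 ▸ hne)
    rw [h1, Pi.one_apply, Real.volume_Icc, ← ENNReal.ofReal_one, ← ENNReal.ofReal_add (by linarith) zero_le_one,
      show r - l + 1 = r + 1 - l by ring, ← Real.volume_Icc]
    refine measure_mono fun x hx => ?_
    by_cases hxr : x ≤ r
    · exact hsub (h1 ▸ ⟨hx.1, hxr⟩)
    · have hr : r ∈ S := h1 ▸ ⟨hlr, le_rfl⟩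
      refine ⟨(r, y), hr, (x - r) • ((1, 0) : ℝ × ℝ), ⟨x - r, ⟨by linarith, by linarith [hx.2]⟩,
        rfl⟩, ?_⟩
      simp
  · rw [indicator_of_notMem hy, add_zero]
    exact measure_mono hsub

/-- The linear map taking `v` to the first basis vector and computing the cross product. -/
noncomputable def crossMap (v : Fin 2 → ℝ) : Matrix (Fin 2) (Fin 2) ℝ :=
  !![v 0 / (v 0 ^ 2 + v 1 ^ 2), v 1 / (v 0 ^ 2 + v 1 ^ 2); -v 1, v 0]

theorem grows_planar {A : Set (Fin 2 → ℝ)} (hA : Convex ℝ A) (cA : IsCompact A)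
    (v x y : Fin 2 → ℝ) (hx : x ∈ A) (hy : y ∈ A) :
    volume A + ENNReal.ofReal |v 0 * (x 1 - y 1) - v 1 * (x 0 - y 0)| ≤ volume (A + seg v) := by
  by_cases hv : v 0 ^ 2 + v 1 ^ 2 = 0
  · obtain ⟨h0, h1⟩ := (add_eq_zero_iff_of_nonneg (sq_nonneg _) (sq_nonneg _)).mp hv
    rw [sq_eq_zero_iff] at h0 h1
    simp only [h0, h1, zero_mul, sub_zero, abs_zero, ENNReal.ofReal_zero, add_zero]
    exact measure_mono fun z hz => ⟨z, hz, 0, ⟨0, by simp, by simp⟩, add_zero z⟩
  have hdet : (crossMap v).det = 1 := by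
    rw [crossMap, Matrix.det_fin_two_of]; field_simp; ring
  set L := (Matrix.toLin' (crossMap v)) with hL
  have hdet' : LinearMap.det L = 1 := by rw [hL, LinearMap.det_toLin', hdet]
  set P : (Fin 2 → ℝ) ≃L[ℝ] (Fin 2 → ℝ) :=
    (LinearMap.equivOfDetNeZero L (by rw [hdet']; exact one_ne_zero)).toContinuousLinearEquiv
  have hmp : MeasurePreserving L volume volume :=
    ⟨L.continuous_of_finiteDimensional.measurable, by
      rw [Real.map_linearMap_volume_pi_eq_smul_volume_pi (by rw [hdet']; exact one_ne_zero), hdet']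
      simp⟩
  set e : (Fin 2 → ℝ) ≃ᵐ ℝ × ℝ :=
    P.toHomeomorph.toMeasurableEquiv.trans MeasurableEquiv.finTwoArrow with he
  have hmp' : MeasurePreserving e volume volume := (volume_preserving_finTwoArrow ℝ).comp hmp
  have hE : ∀ z, e z = ((v 0 * z 0 + v 1 * z 1) / (v 0 ^ 2 + v 1 ^ 2),
      v 0 * z 1 - v 1 * z 0) := by
    intro z
    simp [he, P, hL, crossMap, Matrix.toLin'_apply, Matrix.vecHead, Matrix.vecTail,
      MeasurableEquiv.finTwoArrow]
    constructor <;> ring
  have hl : IsLinearMap ℝ e := by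
    constructor <;> intros <;> simp only [hE, Pi.add_apply, Pi.smul_apply, smul_eq_mul,
      Prod.mk_add_mk, Prod.smul_mk, Prod.mk.injEq] <;> constructor <;> ring
  have hl' : IsLinearMap ℝ e.symm := by
    constructor <;> intros <;> apply e.injective <;> simp [hl.map_add, hl.map_smul]
  have cimg : IsCompact (e '' A) := cA.image (L.continuous_of_finiteDimensional.comp'
    continuous_id |> fun h => (continuous_apply 0).comp h |>.prodMk ((continuous_apply 1).comp h))
  have h := grows_cross (A := e '' A) (hA.is_linear_image hl) cimg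
    ⟨x, hx, rfl⟩ ⟨y, hy, rfl⟩
  have hev : e v = (1, 0) := by
    rw [hE]; ext <;> simp only
    · field_simp
    · ring
  have hs : e '' (A + seg v) = e '' A + seg ((1, 0) : ℝ × ℝ) := by
    ext w
    constructor
    · rintro ⟨_, ⟨a, ha, _, ⟨s, hs, rfl⟩, rfl⟩, rfl⟩
      exact ⟨e a, ⟨a, ha, rfl⟩, s • (1, 0), ⟨s, hs, rfl⟩, by
        rw [hl.map_add, hl.map_smul, hev]⟩
    · rintro ⟨_, ⟨a, ha, rfl⟩, _, ⟨s, hs, rfl⟩, rfl⟩
      exact ⟨a + s • v, ⟨a, ha, s • v, ⟨s, hs, rfl⟩, rfl⟩, by
        rw [hl.map_add, hl.map_smul, hev]⟩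
  have hvol : ∀ S : Set (Fin 2 → ℝ), volume (e '' S) = volume S := fun S => by
    rw [← hmp'.measure_preimage_equiv (e '' S), Set.preimage_image_eq _ e.injective]
  rw [← hs, hvol, hvol, hE, hE] at h
  convert h using 4
  simp only
  ring

theorem volume_sub_self {A : Set (Fin 2 → ℝ)} (cA : IsCompact A) :
    4 * volume A ≤ volume (A - A) := by
  set M := (1 / 2 : ℝ) • (A - A) with hMdef
  have cM : IsCompact M := (sub_eq_add_neg A A ▸ cA.add cA.neg).smul _
  have hm := cA.isClosed.measurableSet
  have h := Vale.Agent.P074.pl_pi 2 (f := A.indicator 1) (g := (-A).indicator 1)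
    (h := M.indicator 1) (measurable_one.indicator hm) (measurable_one.indicator hm.neg)
    (measurable_one.indicator cM.isClosed.measurableSet) (fun x y => by
      by_cases hx : x ∈ A
      · by_cases hy : y ∈ -A
        · have hmem : (1 / 2 : ℝ) • (x + y) ∈ M :=
            smul_mem_smul_set ⟨x, hx, -y, hy, by simp⟩
          rw [indicator_of_mem hx, indicator_of_mem hy, indicator_of_mem hmem]
          simp
        · simp [indicator_of_notMem hy]
      · simp [indicator_of_notMem hx])
  rw [lintegral_indicator_one hm, lintegral_indicator_one hm.neg,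
    lintegral_indicator_one cM.isClosed.measurableSet, Measure.measure_neg] at h
  have h' : volume A ≤ volume M := by
    rw [← sq] at h
    exact (ENNReal.pow_le_pow_left_iff two_ne_zero).mp h
  rw [hMdef, Measure.addHaar_smul] at h'
  calc 4 * volume A ≤ 4 * (ENNReal.ofReal |(1 / 2 : ℝ) ^ Module.finrank ℝ (Fin 2 → ℝ)|
        * volume (A - A)) := by gcongr
    _ = volume (A - A) := by
        rw [← mul_assoc, Module.finrank_fin_fun, show (4 : ℝ≥0∞) = ENNReal.ofReal 4 by simp,
          ← ENNReal.ofReal_mul (by norm_num)]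
        norm_num

end Vale.Agent.P237
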