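import Mathlib
import Vale.Agent.P237.Slices

/-!
Adding a unit segment increases the volume of a convex body by at most the volume of its shadow.
-/

namespace Vale.Agent.P237

open MeasureTheory Set
open scoped ENNReal Pointwise RealInnerProductSpace

theorem slice_upper {W : Type*} [NormedAddCommGroup W] [NormedSpace ℝ W] [MeasureSpace W]
    [BorelSpace W] [SecondCountableTopology W] [SigmaFinite (volume : Measure W)]
    {K : Set (ℝ × W)} (hK : Convex ℝ K) (cK : IsCompact K) :
    volume (K + seg ((1, 0) : ℝ × W)) ≤ volume K + volume (Prod.snd '' K) := by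
  have hm : MeasurableSet (K + seg ((1, 0) : ℝ × W)) :=
    (cK.add (isCompact_seg _)).isClosed.measurableSet
  have hP : MeasurableSet (Prod.snd '' K) := (cK.image continuous_snd).isClosed.measurableSet
  rw [Measure.volume_eq_prod, Measure.prod_apply_symm hm,
    Measure.prod_apply_symm cK.isClosed.measurableSet,
    ← lintegral_indicator_one hP, ← lintegral_add_right _ (measurable_one.indicator hP)]
  refine lintegral_mono fun w => ?_
  set S := (fun s => (s, w)) ⁻¹' K with hS
  by_cases hw : w ∈ Prod.snd '' K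
  · rw [indicator_of_mem hw]
    obtain ⟨z, hz, rfl⟩ := hw
    have hne : S.Nonempty := ⟨z.1, by simp [hS, hz]⟩
    have hc : IsCompact S :=
      (cK.image continuous_fst).of_isClosed_subset (cK.isClosed.preimage (by fun_prop))
        fun x hx => ⟨(x, z.2), hx, rfl⟩
    have hconv : Convex ℝ S := by
      intro s hs t ht c d hc hd hcd
      have h := hK hs ht hc hd hcd
      simpa [hS, ← add_smul, hcd] using h
    have h1 : S = Icc (sInf S) (sSup S) :=
      eq_Icc_of_connected_compact ⟨hne, hconv.isPreconnected⟩ hc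
    set l := sInf S
    set r := sSup S
    have hlr : l ≤ r := nonempty_Icc.mp (h1 ▸ hne)
    rw [h1, Pi.one_apply, Real.volume_Icc, ← ENNReal.ofReal_one,
      ← ENNReal.ofReal_add (by linarith) zero_le_one,
      show r - l + 1 = r + 1 - l by ring, ← Real.volume_Icc]
    refine measure_mono ?_
    rintro x ⟨k, hk, _, ⟨t, ht, rfl⟩, hx⟩
    simp only [Prod.ext_iff, Prod.fst_add, Prod.snd_add, Prod.smul_mk, smul_zero, add_zero,
      smul_eq_mul, mul_one] at hx
    have hk' : k.1 ∈ S := by
      simp only [hS, mem_preimage, ← hx.2, Prod.mk.eta]; exact hk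
    rw [h1] at hk'
    constructor <;> linarith [hk'.1, hk'.2, ht.1, ht.2, hx.1]
  · have e : (fun s => (s, w)) ⁻¹' (K + seg ((1, 0) : ℝ × W)) = ∅ := by
      refine eq_empty_of_forall_notMem fun x ⟨k, hk, _, ⟨t, ht, rfl⟩, hx⟩ => hw ⟨k, hk, ?_⟩
      simpa using congrArg Prod.snd hx
    rw [e, measure_empty]
    exact zero_le

variable {E : Type*} [NormedAddCommGroup E] [InnerProductSpace ℝ E] [FiniteDimensional ℝ E]
  [MeasurableSpace E] [BorelSpace E]

theorem volume_seg_le {K : Set E} (hK : Convex ℝ K) (cK : IsCompact K) {u : E} (hu : ‖u‖ = 1) :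
    volume (K + seg u) ≤ volume K + volume ((ℝ ∙ u)ᗮ.orthogonalProjectionOnto '' K) := by
  set W := (ℝ ∙ u)ᗮ with hW
  set Ψ : WithLp 2 (ℝ × W) ≃ₗᵢ[ℝ] E :=
    (LinearIsometryEquiv.withLpProdCongr 2 (LinearIsometryEquiv.toSpanUnitSingleton u hu)
      (LinearIsometryEquiv.refl ℝ W)).trans (ℝ ∙ u).orthogonalDecomposition.symm with hΨ
  set e : ℝ × W ≃ᵐ E :=
    (MeasurableEquiv.toLp 2 (ℝ × W)).trans Ψ.toHomeomorph.toMeasurableEquiv
  have he : MeasurePreserving e volume volume :=
    (LinearIsometryEquiv.measurePreserving Ψ).comp (WithLp.volume_preserving_toLp ℝ W)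
  have happ : ∀ p : ℝ × W, e p = p.1 • u + (p.2 : E) := by
    intro p
    simp [e, hΨ, LinearIsometryEquiv.withLpProdCongr]
    rfl
  have hl : IsLinearMap ℝ e := by
    constructor <;> intros <;> simp only [happ, Prod.fst_add, Prod.snd_add, Prod.smul_fst,
      Prod.smul_snd, Submodule.coe_add, Submodule.coe_smul, smul_eq_mul, add_smul, mul_smul,
      smul_add]
    abel
  have hproj : ∀ p : ℝ × W, W.orthogonalProjectionOnto (e p) = p.2 := by
    intro p
    rw [happ, map_add, map_smul,
      (Submodule.orthogonalProjectionOnto_eq_zero_iff (K := W)).mpr ?_, smul_zero, zero_add,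
      Submodule.orthogonalProjectionOnto_mem_subspace_eq_self]
    rw [hW, Submodule.orthogonal_orthogonal]
    exact Submodule.mem_span_singleton_self u
  have cK' : IsCompact (e ⁻¹' K) := by
    have hc : Continuous e.symm := by
      exact (WithLp.prod_continuous_ofLp 2 ℝ W).comp Ψ.symm.continuous
    have : e ⁻¹' K = e.symm '' K := by
      ext x; exact ⟨fun h => ⟨e x, h, e.symm_apply_apply x⟩, fun ⟨y, hy, h⟩ => by
        simp [← h, hy]⟩
    rw [this]; exact cK.image hc
  have h := slice_upper (hK.is_linear_preimage hl) cK'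
  have hs : e ⁻¹' (K + seg u) = e ⁻¹' K + seg ((1, 0) : ℝ × W) := by
    ext p
    constructor
    · rintro ⟨k, hk, _, ⟨t, ht, rfl⟩, hp⟩
      refine ⟨e.symm k, by simpa using hk, t • (1, 0), ⟨t, ht, rfl⟩, e.injective ?_⟩
      rw [hl.map_add, hl.map_smul, e.apply_symm_apply, happ]
      simpa using hp
    · rintro ⟨k, hk, _, ⟨t, ht, rfl⟩, rfl⟩
      exact ⟨e k, hk, t • u, ⟨t, ht, rfl⟩, by rw [hl.map_add, hl.map_smul, happ (1, 0)]; simp⟩
  have hsnd : Prod.snd '' (e ⁻¹' K) = W.orthogonalProjectionOnto '' K := by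
    ext w
    constructor
    · rintro ⟨p, hp, rfl⟩; exact ⟨e p, hp, hproj p⟩
    · rintro ⟨k, hk, rfl⟩
      exact ⟨e.symm k, by simpa using hk, by rw [← hproj (e.symm k), e.apply_symm_apply]⟩
  rwa [← hs, he.measure_preimage_equiv, he.measure_preimage_equiv, hsnd] at h

end Vale.Agent.P237
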