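import Mathlib
import Vale.Agent.P237.Bridge
import Vale.Agent.P237.Ball

/-!
Petty's inequality for affine images of products of planar convex bodies and segments.
-/

namespace Vale.Agent.P237

open MeasureTheory Set
open scoped ENNReal Pointwise RealInnerProductSpace

/-- The product of the planar sets `A i` and of `b` unit intervals. -/
def prodBody {a b : ℕ} (A : Fin a → Set (Fin 2 → ℝ)) :
    Set (EuclideanSpace ℝ (Fin a × Fin 2 ⊕ Fin b)) :=
  {x | (∀ i, (fun c => x (Sum.inl (i, c))) ∈ A i) ∧ ∀ j, x (Sum.inr j) ∈ Icc (0 : ℝ) 1}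

section defs

variable {E : Type*} [NormedAddCommGroup E] [InnerProductSpace ℝ E] [FiniteDimensional ℝ E]
  [MeasurableSpace E] [BorelSpace E]

/-- The volume of the orthogonal projection of `K` onto the hyperplane orthogonal to `u`. -/
noncomputable def shadow (K : Set E) (u : E) : ℝ≥0∞ :=
  volume ((ℝ ∙ u)ᗮ.orthogonalProjectionOnto '' K)

/-- The projection body: its support function at a unit vector is the volume of the shadow. -/
noncomputable def projBody (K : Set E) : Set E :=
  {x | ∀ u : E, ‖u‖ = 1 → ⟪x, u⟫ ≤ (shadow K u).toReal}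

/-- Volume of the Euclidean unit ball in dimension `m`. -/
noncomputable def unitBallVolume (m : ℕ) : ℝ≥0∞ :=
  volume (Metric.closedBall (0 : EuclideanSpace ℝ (Fin m)) 1)

/-- The strict projection-volume inequality of Petty in dimension `n`. -/
def StrictPetty (n : ℕ) (K : Set E) : Prop :=
  unitBallVolume (n - 1) ^ n * volume K ^ (n - 1) < unitBallVolume n ^ (n - 2) * volume (projBody K)

end defs

/-- The coordinate space of `prodBody`. -/
abbrev Space (a b : ℕ) : Type := EuclideanSpace ℝ (Fin a × Fin 2 ⊕ Fin b)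

/-- Convex bodies: compact convex sets with nonempty interior. -/
def IsBody {X : Type*} [AddCommGroup X] [Module ℝ X] [TopologicalSpace X] (K : Set X) : Prop :=
  Convex ℝ K ∧ IsCompact K ∧ (interior K).Nonempty

/-- Affine images of products of planar convex bodies and segments. -/
def IsProductImage {a b : ℕ} (K : Set (Space a b)) : Prop :=
  ∃ (A : Fin a → Set (Fin 2 → ℝ)) (T : Space a b ≃ᵃ[ℝ] Space a b),
    (∀ i, IsBody (A i)) ∧ K = T '' prodBody A

/-- Blocks of coordinates. -/
abbrev Blocks (a b : ℕ) : Type := (Fin a → Fin 2 → ℝ) × (Fin b → ℝ)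

/-- Euclidean coordinates from blocks. -/
noncomputable def join (a b : ℕ) : Blocks a b ≃ᵐ EuclideanSpace ℝ (Fin a × Fin 2 ⊕ Fin b) where
  toFun p := WithLp.toLp 2 (Sum.elim (fun k => p.1 k.1 k.2) p.2)
  invFun x := (fun i c => x (Sum.inl (i, c)), fun j => x (Sum.inr j))
  left_inv p := rfl
  right_inv x := by ext k; rcases k with ⟨i, c⟩ | j <;> rfl
  measurable_toFun := by
    refine (MeasurableEquiv.toLp 2 _).measurable.comp (measurable_pi_lambda _ fun k => ?_)
    rcases k with ⟨i, c⟩ | j
    · exact (measurable_pi_apply c).comp ((measurable_pi_apply i).comp measurable_fst)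
    · exact (measurable_pi_apply j).comp measurable_snd
  measurable_invFun := by
    refine Measurable.prodMk (measurable_pi_lambda _ fun i => measurable_pi_lambda _ fun c => ?_)
      (measurable_pi_lambda _ fun j => ?_)
    · exact (measurable_pi_apply (Sum.inl (i, c))).comp (MeasurableEquiv.toLp 2 _).symm.measurable
    · exact (measurable_pi_apply (Sum.inr j)).comp (MeasurableEquiv.toLp 2 _).symm.measurable

theorem join_apply {a b : ℕ} (p : Blocks a b) :
    join a b p = WithLp.toLp 2 (Sum.elim (fun k => p.1 k.1 k.2) p.2) := rfl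

theorem join_symm_apply {a b : ℕ} (x : EuclideanSpace ℝ (Fin a × Fin 2 ⊕ Fin b)) :
    (join a b).symm x = (fun i c => x (Sum.inl (i, c)), fun j => x (Sum.inr j)) := rfl

theorem join_mp (a b : ℕ) : MeasurePreserving (join a b) volume volume := by
  have hm : Measurable fun p : Blocks a b =>
      (Sum.elim (fun k => p.1 k.1 k.2) p.2 : Fin a × Fin 2 ⊕ Fin b → ℝ) := by
    refine measurable_pi_lambda _ fun k => ?_
    rcases k with ⟨i, c⟩ | j
    · exact (measurable_pi_apply c).comp ((measurable_pi_apply i).comp measurable_fst)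
    · exact (measurable_pi_apply j).comp measurable_snd
  refine (PiLp.volume_preserving_toLp _).comp ⟨hm, ?_⟩
  refine (Measure.pi_eq fun s hs => ?_).symm
  rw [Measure.map_apply hm (MeasurableSet.univ_pi hs)]
  have e : (fun p : Blocks a b => (Sum.elim (fun k => p.1 k.1 k.2) p.2 : Fin a × Fin 2 ⊕ Fin b → ℝ))
      ⁻¹' univ.pi s
      = (univ.pi fun i => univ.pi fun c => s (Sum.inl (i, c))) ×ˢ
        univ.pi (fun j => s (Sum.inr j)) := by
    ext p; simp [Prod.forall]
  rw [e, Measure.volume_eq_prod, Measure.prod_prod, volume_pi_pi, volume_pi_pi,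
    Fintype.prod_sum_type, Fintype.prod_prod_type]
  simp only [volume_pi_pi]

theorem join_linear (a b : ℕ) : IsLinearMap ℝ (join a b) := by
  constructor <;> intros <;> ext k <;> rcases k with ⟨i, c⟩ | j <;> simp [join_apply]

theorem join_symm_linear (a b : ℕ) : IsLinearMap ℝ (join a b).symm := by
  constructor <;> intros <;> apply (join a b).injective <;>
    simp [(join_linear a b).map_add, (join_linear a b).map_smul]

/-- A quarter turn followed by scaling by `s`. -/
noncomputable def turn (s : ℝ) : (Fin 2 → ℝ) →ₗ[ℝ] (Fin 2 → ℝ) :=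
  Matrix.toLin' !![0, -s; s, 0]

theorem turn_image_volume (s : ℝ) (S : Set (Fin 2 → ℝ)) :
    volume (turn s '' S) = ENNReal.ofReal (s ^ 2) * volume S := by
  rw [Measure.addHaar_image_linearMap, turn, LinearMap.det_toLin', Matrix.det_fin_two_of]
  congr 2
  rw [show (0 : ℝ) * 0 - -s * s = s ^ 2 by ring, abs_of_nonneg (sq_nonneg _)]

theorem det_adjoint_symm {E : Type*} [NormedAddCommGroup E] [InnerProductSpace ℝ E]
    [FiniteDimensional ℝ E] (f : E →ₗ[ℝ] E) :
    LinearMap.det (LinearMap.adjoint f) = LinearMap.det f := by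
  classical
  rw [← LinearMap.det_toMatrix (stdOrthonormalBasis ℝ E).toBasis,
    ← LinearMap.det_toMatrix (stdOrthonormalBasis ℝ E).toBasis, LinearMap.toMatrix_adjoint,
    Matrix.det_conjTranspose]
  simp

variable {a b : ℕ}

theorem proj_lower (A : Fin a → Set (Fin 2 → ℝ))
    (hA : ∀ i, Convex ℝ (A i) ∧ IsCompact (A i) ∧ (interior (A i)).Nonempty)
    (T : EuclideanSpace ℝ (Fin a × Fin 2 ⊕ Fin b) ≃ᵃ[ℝ] EuclideanSpace ℝ (Fin a × Fin 2 ⊕ Fin b))
    (hn : 1 ≤ 2 * a + b) :
    2 ^ (2 * a + b) * volume (T '' prodBody A) ^ (2 * a + b - 1)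
        ≤ volume (projBody (T '' prodBody A)) ∧
      volume (T '' prodBody A) ≠ 0 ∧ volume (T '' prodBody A) ≠ ⊤ := by
  set I : Set ℝ := Icc 0 1
  set V : Set (Blocks a b) := univ.pi A ×ˢ univ.pi fun _ => I with hV
  have hPe : prodBody A = (join a b).symm ⁻¹' V := by
    ext x; simp [prodBody, hV, join_symm_apply, I, Pi.le_def, forall_and]
  set P := prodBody (b := b) A
  have hvA : ∀ i, volume (A i) ≠ 0 ∧ volume (A i) ≠ ⊤ := fun i =>
    ⟨(Measure.measure_pos_of_nonempty_interior _ (hA i).2.2).ne', (hA i).2.1.measure_ne_top⟩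
  set al : Fin a → ℝ := fun i => (volume (A i)).toReal
  have hal : ∀ i, 0 < al i := fun i => ENNReal.toReal_pos (hvA i).1 (hvA i).2
  set p : ℝ := ∏ i, al i with hpdef
  have hp : 0 < p := Finset.prod_pos fun i _ => hal i
  have hvV : volume P = ENNReal.ofReal p := by
    rw [hPe, (join_mp a b).symm.measure_preimage_equiv, hV, Measure.volume_eq_prod,
      Measure.prod_prod, volume_pi_pi, volume_pi_pi, hpdef,
      ENNReal.ofReal_prod_of_nonneg fun i _ => (hal i).le]
    simp only [I, Real.volume_Icc, sub_zero, ENNReal.ofReal_one, Finset.prod_const_one, mul_one]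
    exact Finset.prod_congr rfl fun i _ => (ENNReal.ofReal_toReal (hvA i).2).symm
  have cV : IsCompact V := (isCompact_univ_pi fun i => (hA i).2.1).prod
    (isCompact_univ_pi fun _ => isCompact_Icc)
  have hjc : Continuous (join a b) := (PiLp.continuous_toLp 2 _).comp (continuous_pi fun k => by
    rcases k with ⟨i, c⟩ | j
    · exact (continuous_apply c).comp ((continuous_apply i).comp continuous_fst)
    · exact (continuous_apply j).comp continuous_snd)
  have cP : IsCompact P := by
    have : P = join a b '' V := by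
      rw [hPe]; ext x
      exact ⟨fun h => ⟨_, h, (join a b).apply_symm_apply x⟩,
        fun ⟨y, hy, h⟩ => by simpa [← h] using hy⟩
    rw [this]; exact cV.image hjc
  have hPc : Convex ℝ P := by
    rw [hPe]
    exact ((convex_pi fun i _ => (hA i).1).prod
      (convex_pi fun _ _ => convex_Icc _ _)).is_linear_preimage (join_symm_linear a b)
  set G : EuclideanSpace ℝ (Fin a × Fin 2 ⊕ Fin b) ≃ₗ[ℝ]
    EuclideanSpace ℝ (Fin a × Fin 2 ⊕ Fin b) := T.linear with hG
  set c : ℝ := |LinearMap.det G.toLinearMap|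
  have hc : 0 < c := abs_pos.mpr (G.isUnit_det'.ne_zero)
  have hTe : ∀ x, T x = G x + T 0 := fun x => by
    have h := T.map_vadd 0 x
    simpa [hG] using h
  have hTv : ∀ S, volume (T '' S) = ENNReal.ofReal c * volume S := by
    intro S
    rw [show T '' S = (fun y => y + T 0) '' (G '' S) by
        rw [image_image]; exact image_congr fun x _ => hTe x,
      image_add_right, measure_preimage_add_right]
    exact Measure.addHaar_image_linearMap _ _ S
  set K := T '' P
  have hKc : Convex ℝ K := hPc.affine_image T.toAffineMap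
  have hKk : IsCompact K := cP.image T.toAffineMap.continuous_of_finiteDimensional
  have hvK : volume K = ENNReal.ofReal (c * p) := by
    rw [hTv, hvV, ENNReal.ofReal_mul hc.le]
  -- the body of lower bounds
  set M : Fin a → Set (Fin 2 → ℝ) := fun i => turn (p / al i) '' (A i - A i)
  set W : Set (Blocks a b) := univ.pi M ×ˢ univ.pi fun _ => Icc (-p) p
  set F : EuclideanSpace ℝ (Fin a × Fin 2 ⊕ Fin b) →ₗ[ℝ] EuclideanSpace ℝ (Fin a × Fin 2 ⊕ Fin b) :=
    c • LinearMap.adjoint G.symm.toLinearMap with hF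
  have hsub : F '' (join a b '' W) ⊆ projBody K := by
    rintro _ ⟨_, ⟨w, ⟨hw1, hw2⟩, rfl⟩, rfl⟩ u hu
    have hxy : ∀ i, ∃ xy : (Fin 2 → ℝ) × (Fin 2 → ℝ), xy.1 ∈ A i ∧ xy.2 ∈ A i ∧
        w.1 i = turn (p / al i) (xy.1 - xy.2) := by
      intro i
      obtain ⟨_, ⟨x, hx, y, hy, rfl⟩, h⟩ := hw1 i (mem_univ i)
      exact ⟨(x, y), hx, hy, h.symm⟩
    choose xy hx hy he using hxy
    set f : Fin a → (Fin 2 → ℝ) → ℝ≥0∞ := fun i v => ENNReal.ofReal
      |v 0 * ((xy i).1 1 - (xy i).2 1) - v 1 * ((xy i).1 0 - (xy i).2 0)| / volume (A i)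
    have hgi : ∀ i, Grows (A i) (f i) := fun i v => by
      rw [mul_add, mul_one, ENNReal.mul_div_cancel (hvA i).1 (hvA i).2]
      exact grows_planar (hA i).1 (hA i).2.1 v _ _ (hx i) (hy i)
    have hfi : ∀ i, Hom (f i) := fun i r hr v => by
      simp only [f, Pi.smul_apply, smul_eq_mul]
      rw [← mul_div_assoc, ← ENNReal.ofReal_mul hr,
        show r * v 0 * ((xy i).1 1 - (xy i).2 1) - r * v 1 * ((xy i).1 0 - (xy i).2 0)
          = r * (v 0 * ((xy i).1 1 - (xy i).2 1) - v 1 * ((xy i).1 0 - (xy i).2 0)) by ring,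
        abs_mul, abs_of_nonneg hr]
    have hs : Hom fun v : Fin a → Fin 2 → ℝ => ∑ i, f i (v i) := fun r hr v => by
      simp only [Pi.smul_apply, Finset.mul_sum, hfi _ r hr]
    have hgV := (grows_pi a A f (fun i => (hA i).2.1) (fun i => (hA i).1) hgi hfi).prod
      (isCompact_univ_pi fun i => (hA i).2.1)
      (isCompact_univ_pi fun _ : Fin b => isCompact_Icc (a := (0 : ℝ)) (b := 1))
      (convex_pi fun _ _ => convex_Icc _ _) hs
      (grows_pi b (fun _ => Icc (0 : ℝ) 1) (fun _ v => ENNReal.ofReal |v|)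
        (fun _ => isCompact_Icc) (fun _ => convex_Icc _ _) (fun _ => grows_interval)
        (fun _ => hom_abs))
    have hgP := hgV.comap (join a b).symm (join_mp a b).symm (join_symm_linear a b) (G.symm u)
    rw [← hV, ← hPe, hvV] at hgP
    set v := G.symm u with hv
    have hseg : K + seg u = T '' (P + seg v) := by
      ext x
      constructor
      · rintro ⟨_, ⟨z, hz, rfl⟩, _, ⟨t, ht, rfl⟩, rfl⟩
        refine ⟨z + t • v, ⟨z, hz, t • v, ⟨t, ht, rfl⟩, rfl⟩, ?_⟩
        rw [hTe z, hTe (z + t • v), map_add, map_smul, hv, LinearEquiv.apply_symm_apply]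
        abel
      · rintro ⟨_, ⟨z, hz, _, ⟨t, ht, rfl⟩, rfl⟩, rfl⟩
        refine ⟨T z, ⟨z, hz, rfl⟩, t • u, ⟨t, ht, rfl⟩, ?_⟩
        rw [hTe z, hTe (z + t • v), map_add, map_smul, hv, LinearEquiv.apply_symm_apply]
        abel
    have hpk : volume ((ℝ ∙ u)ᗮ.orthogonalProjectionOnto '' K) ≠ ⊤ :=
      (hKk.image (ContinuousLinearMap.continuous _)).measure_ne_top
    have key : ENNReal.ofReal c * (ENNReal.ofReal p * ((∑ i, f i (((join a b).symm v).1 i))
        + ∑ j, ENNReal.ofReal |((join a b).symm v).2 j|))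
        ≤ volume ((ℝ ∙ u)ᗮ.orthogonalProjectionOnto '' K) := by
      refine (ENNReal.add_le_add_iff_left (a := volume K)
        (hvK ▸ ENNReal.ofReal_ne_top)).mp ?_
      refine le_trans ?_ (volume_seg_le hKc hKk hu)
      rw [hseg, hTv, hTv, hvV, ← mul_add]
      gcongr
      refine le_trans (le_of_eq ?_) hgP
      simp only [Function.comp, mul_add, mul_one]
    have e1 : ⟪F (join a b w), u⟫ = c * ((∑ i, ∑ k, w.1 i k * ((join a b).symm v).1 i k)
        + ∑ j, w.2 j * ((join a b).symm v).2 j) := by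
      rw [hF, LinearMap.smul_apply, real_inner_smul_left, LinearMap.adjoint_inner_left]
      congr 1
      rw [PiLp.inner_apply, Fintype.sum_sum_type, Fintype.sum_prod_type]
      simp [join_apply, join_symm_apply, mul_comm, hv]
    rw [e1]
    refine (ENNReal.ofReal_le_iff_le_toReal hpk).mp (le_trans ?_ key)
    rw [ENNReal.ofReal_mul hc.le]
    gcongr
    rw [mul_add, Finset.mul_sum, Finset.mul_sum]
    refine ENNReal.ofReal_add_le.trans (add_le_add ?_ ?_)
    · refine le_trans (ENNReal.ofReal_le_ofReal (Finset.sum_le_sum fun i _ => ?_))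
        (le_of_eq ?_) (b := ENNReal.ofReal (∑ i, p / al i *
          |((join a b).symm v).1 i 0 * ((xy i).1 1 - (xy i).2 1)
            - ((join a b).symm v).1 i 1 * ((xy i).1 0 - (xy i).2 0)|))
      · rw [Fin.sum_univ_two, he i]
        have hq : 0 ≤ p / al i := div_nonneg hp.le (hal i).le
        simp [turn, Matrix.vecHead, Matrix.vecTail]
        rw [← abs_neg]
        refine le_trans (le_of_eq ?_) (mul_le_mul_of_nonneg_left (le_abs_self _) hq)
        ring
      · rw [ENNReal.ofReal_sum_of_nonneg fun i _ =>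
          mul_nonneg (div_nonneg hp.le (hal i).le) (abs_nonneg _)]
        refine Finset.sum_congr rfl fun i _ => ?_
        simp only [f]
        rw [← ENNReal.ofReal_toReal (hvA i).2, ← ENNReal.ofReal_div_of_pos (hal i),
          ← ENNReal.ofReal_mul hp.le]
        congr 1
        ring
    · refine le_trans (ENNReal.ofReal_le_ofReal (Finset.sum_le_sum fun j _ => ?_))
        (le_of_eq ?_) (b := ENNReal.ofReal (∑ j, p * |((join a b).symm v).2 j|))
      · refine (le_abs_self _).trans ?_
        rw [abs_mul]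
        exact mul_le_mul_of_nonneg_right (abs_le.mpr ⟨(hw2 j trivial).1, (hw2 j trivial).2⟩)
          (abs_nonneg _)
      · rw [ENNReal.ofReal_sum_of_nonneg fun j _ => mul_nonneg hp.le (abs_nonneg _)]
        exact Finset.sum_congr rfl fun j _ => ENNReal.ofReal_mul hp.le
  refine ⟨le_trans ?_ (measure_mono hsub), ?_, ?_⟩
  · have hdet : |LinearMap.det F| = c ^ (2 * a + b) / c := by
      have hgs : LinearMap.det (G.symm : EuclideanSpace ℝ (Fin a × Fin 2 ⊕ Fin b) →ₗ[ℝ] _)
          = (LinearMap.det (G : EuclideanSpace ℝ (Fin a × Fin 2 ⊕ Fin b) →ₗ[ℝ] _))⁻¹ :=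
        LinearEquiv.det_coe_symm G
      rw [hF, LinearMap.det_smul, det_adjoint_symm, hgs, abs_mul, abs_pow, abs_of_pos hc,
        finrank_euclideanSpace, abs_inv]
      simp only [Fintype.card_sum, Fintype.card_prod, Fintype.card_fin]
      rw [mul_comm a 2, div_eq_mul_inv]
    have himg : join a b '' W = (join a b).symm ⁻¹' W := by
      ext x
      exact ⟨fun ⟨y, hy, h⟩ => by simpa [← h] using hy,
        fun h => ⟨_, h, (join a b).apply_symm_apply x⟩⟩
    rw [Measure.addHaar_image_linearMap, hdet, himg, (join_mp a b).symm.measure_preimage_equiv,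
      Measure.volume_eq_prod, Measure.prod_prod, volume_pi_pi, volume_pi_pi, hvK]
    have hM : ∀ i, ENNReal.ofReal (4 * p ^ 2 / al i) ≤ volume (M i) := by
      intro i
      rw [turn_image_volume]
      refine le_trans (le_of_eq ?_) (mul_le_mul_right (volume_sub_self (hA i).2.1) _)
      rw [← ENNReal.ofReal_toReal (hvA i).2, show (4 : ℝ≥0∞) = ENNReal.ofReal 4 by simp,
        ← ENNReal.ofReal_mul (by norm_num), ← ENNReal.ofReal_mul (sq_nonneg _)]
      congr 1
      have := (hal i).ne'
      field_simp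
      ring
    refine le_trans ?_ (mul_le_mul_right (mul_le_mul_left (Finset.prod_le_prod' fun i _ => hM i) _) _)
    rw [← ENNReal.ofReal_prod_of_nonneg fun i _ => (div_pos (by positivity) (hal i)).le]
    simp only [Real.volume_Icc, Finset.prod_const, Finset.card_univ, Fintype.card_fin]
    rw [← ENNReal.ofReal_pow (show (0 : ℝ) ≤ p - -p by linarith), ← ENNReal.ofReal_mul (Finset.prod_nonneg fun i _ =>
        (div_pos (by positivity) (hal i)).le), ← ENNReal.ofReal_mul (by positivity),
      show (2 : ℝ≥0∞) = ENNReal.ofReal 2 by simp, ← ENNReal.ofReal_pow (by norm_num),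
      ← ENNReal.ofReal_pow (mul_pos hc hp).le, ← ENNReal.ofReal_mul (by positivity)]
    refine ENNReal.ofReal_le_ofReal (le_of_eq ?_)
    rw [Finset.prod_div_distrib, Finset.prod_const, Finset.card_univ, Fintype.card_fin, ← hpdef,
      show p - -p = 2 * p by ring]
    obtain ⟨k, hk⟩ : ∃ k, 2 * a + b = k + 1 := ⟨2 * a + b - 1, by omega⟩
    rw [hk, Nat.add_sub_cancel]
    field_simp
    have e4 : ((4 : ℝ) ^ a) * 2 ^ b = 2 ^ (k + 1) := by
      rw [← hk, pow_add, pow_mul]; norm_num
    have ep : (p ^ 2) ^ a * p ^ b = p ^ k * p := by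
      rw [← pow_succ, ← hk, pow_add, pow_mul]
    calc _ = 2 ^ (k + 1) * c ^ (k + 1) * (p ^ k * p) := by ring
      _ = _ := by rw [← e4, ← ep]; ring
  · rw [hvK]; simp [mul_pos hc hp]
  · rw [hvK]; exact ENNReal.ofReal_ne_top

end Vale.Agent.P237
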